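import Crest.Agent.X262.Res85.Tr
import Crest.Agent.X262.Res.Loop

/-!
# Row 262, RES+ : the centre is generated by weight vectors (helper85)

`exists_centre_ev` is `G1.Setup.exists_centre` of `X277/Res/G1b` with weight-vector generators;
`centreEV` proves the Prop `CentreEV` of `X262/Res/Loop`.
-/

set_option autoImplicit false
set_option linter.unusedSectionVars false
set_option linter.style.haveILetI false

noncomputable section

namespace Crest.Agent.X262.Res85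

open AddMonoidAlgebra Crest.Agent.X277.Res Crest.Agent.X277.Res.Gr Crest.Agent.X277.Res.G1 Filter

section General

variable {k C G : Type} [Field k] [Field C] [Algebra k C] [AddCommGroup G]
variable {R : Subalgebra k (GA C G)} {M : AddSubgroup G} {h : Good R M} {U : Set (R →ₐ[k] k)}
  {ε : GA C G} {I T : Set (GA C G)} {d : ℕ} {s : Act k C}

/-- the global centre is generated by weight vectors -/
theorem exists_centre_ev [IsAlgClosed k] [CharZero k] (tl : Tools k C G) (S : Setup h U ε I T d)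
    (hR : EG s R) (hU : ∀ a, ∀ q ∈ U, hR.pt a q ∈ U) (hε : EV s ε) (hI : ∀ f ∈ I, EV s f)
    {w : Fin d → ℚ} {t : Fin d → Bool} (hA : Allowed w) (hB : Bound h U ε I w t) :
    ∃ (a : ℕ) (W : Fin d → ℕ) (n : ℕ) (g : Fin n → GA C G) (e : Fin n → ℕ),
      Centre h U ε I T w t a W g e ∧ ∀ j, EV s (g j) := by
  classical
  haveI := h.noeth
  obtain ⟨a, W, ha, hW⟩ := exists_common_den w hA.1
  have ha' : (0 : ℚ) < a := Nat.cast_pos.2 ha
  have hgen : ∀ b : ℕ, ∃ s' : Finset R, (∀ f ∈ s', EV s (f : GA C G)) ∧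
      Ideal.span (s' : Set R) = glue U (JJ h ε I w t (b / a)) := fun b =>
    hR.exists_finset (homI_glue h.gr fun q _ => homI_JJ w t _ q)
      (glue_JJ_stable hR h hU hε hI w t _)
  choose s' hsH hs using hgen
  let P : Finset (GA C G × ℕ) :=
    ((Finset.Icc 1 a).biUnion fun b => (s' b).image fun f : R => ((f : GA C G), b)) ∪
      S.fin.toFinset.image fun f => (f, a)
  have hP : ∀ p : GA C G × ℕ, p ∈ P ↔
      (1 ≤ p.2 ∧ p.2 ≤ a ∧ ∃ f ∈ s' p.2, (f : GA C G) = p.1) ∨ (p.1 ∈ I ∧ p.2 = a) := by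
    rintro ⟨f, b⟩
    simp only [P, Finset.mem_union, Finset.mem_biUnion, Finset.mem_Icc, Finset.mem_image,
      Prod.mk.injEq, Set.Finite.mem_toFinset]
    refine or_congr ⟨?_, ?_⟩ ⟨?_, ?_⟩
    · rintro ⟨b', ⟨h1, h2⟩, f', hf', rfl, rfl⟩
      exact ⟨h1, h2, f', hf', rfl⟩
    · rintro ⟨h1, h2, f', hf', rfl⟩
      exact ⟨b, ⟨h1, h2⟩, f', hf', rfl, rfl⟩
    · rintro ⟨f', hf', rfl, rfl⟩
      exact ⟨hf', rfl⟩
    · rintro ⟨h1, rfl⟩
      exact ⟨f, h1, rfl, rfl⟩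
  let E := P.equivFin.symm
  have hE : ∀ j, ((E j : GA C G × ℕ)) ∈ P := fun j => (E j).2
  have hE' : ∀ p ∈ P, ∃ j, ((E j : GA C G × ℕ)) = p := fun p hp =>
    ⟨E.symm ⟨p, hp⟩, by rw [Equiv.apply_symm_apply]⟩
  have hscale : ∀ (O : Subalgebra k (GA C G)) (z : Fin d → GA C G) (b : ℕ),
      filt O z (fun i => (W i : ℚ)) b = filt O z w (b / a) := by
    intro O z b
    rw [← filt_scale O z ha' hW, mul_div_cancel₀ _ ha'.ne']
  have hspan : ∀ (b : ℕ), 1 ≤ b → b ≤ a → ∀ q ∈ U, ∀ f : loc R q, f ∈ JJ h ε I w t (b / a) q →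
      (f : GA C G) ∈ Submodule.span (loc R q)
        {f | ∃ j, (E j : GA C G × ℕ).2 = b ∧ f = (E j : GA C G × ℕ).1} := by
    intro b h1 h2 q hq f hf
    rw [← map_glue h.fg (fun q' hq' => S.JJ_loc tl hB _ hq') hq, ← hs, ← coe_mem_amb,
      amb_map_incl_span] at hf
    refine Submodule.span_mono ?_ hf
    rintro _ ⟨f', hf', rfl⟩
    obtain ⟨j, hj⟩ := hE' ((f' : GA C G), b) ((hP _).2 (Or.inl ⟨h1, h2, f', hf', rfl⟩))
    exact ⟨j, by rw [hj], by rw [hj]⟩
  have hEV : ∀ j, EV s (E j : GA C G × ℕ).1 := by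
    intro j
    rcases (hP _).1 (hE j) with ⟨-, -, f, hfs, hf⟩ | ⟨hf, -⟩
    · exact hf ▸ hsH _ f hfs
    · exact hI _ hf
  refine ⟨a, W, P.card, fun j => (E j : GA C G × ℕ).1, fun j => (E j : GA C G × ℕ).2, ⟨ha, hW,
    fun i => ?_, fun j => ?_, fun j => (hEV j).isH, fun j => ?_, fun f hf => ?_,
    fun q hq => ?_⟩, hEV⟩
  · have h1 : (W i : ℚ) ≤ a := by
      rw [hW]; exact mul_le_of_le_one_right ha'.le (Allowed_le_one hA i)
    exact_mod_cast h1
  · rcases (hP _).1 (hE j) with ⟨-, -, f, -, hf⟩ | ⟨hf, -⟩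
    · exact hf ▸ f.2
    · exact (S.mem _ hf).1
  · rcases (hP _).1 (hE j) with ⟨h1, -⟩ | ⟨-, h1⟩
    · exact h1
    · exact h1 ▸ ha
  · obtain ⟨j, hj⟩ := hE' (f, a) ((hP _).2 (Or.inr ⟨hf, rfl⟩))
    exact ⟨j, by rw [hj], by rw [hj]⟩
  · by_cases hz : ∃ z : Fin d → GA C G, Comp (locOf h q) ε I ⟨z, w, t⟩
    · obtain ⟨z, hz⟩ := hz
      obtain ⟨c, hc, hp⟩ := S.on_max tl hB hq hz
      refine Or.inl ⟨c, hc, hp, fun j => ?_, fun b h1 h2 f hf => ?_⟩
      · rw [hscale]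
        rcases (hP _).1 (hE j) with ⟨-, -, f, hfs, hf⟩ | ⟨hf, h1⟩
        · have h2 : f ∈ glue U (JJ h ε I w t ((E j : GA C G × ℕ).2 / a)) :=
            hs _ ▸ Ideal.subset_span hfs
          rw [← hf]
          exact mem_JJ.1 (mem_glue.1 h2 q hq) c.x hp
        · rw [h1, div_self ha'.ne']
          exact hp.adm _ hf
      · have hfO : f ∈ loc R q := filt_le_O hc.shape.mem _ _ hf
        refine hspan b h1 h2 q hq ⟨f, hfO⟩ ?_
        rw [S.JJ_eq tl hc fun _ => hp, mem_unamb, ← hscale]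
        exact hf
    · refine Or.inr ⟨?_, S.off_max tl hB hq hz⟩
      by_contra hcon
      push Not at hcon
      have h1 := hspan 1 le_rfl ha q hq 1 (mem_JJ.2 fun z hz' => absurd ⟨z, hz'⟩ hz)
      refine (locOf h q).one_notMem (Submodule.span_le.2 ?_ h1)
      rintro _ ⟨j, hj, rfl⟩
      exact hcon j hj

end General

theorem centreEV (k : Type) [Field k] [IsAlgClosed k] [CharZero k] : Res.CentreEV k := by
  intro C F _ _ _ _ S π N y B d s tl X I S0 hX hI w t hA hB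
  have hR : EG s X.R := eg_adjoin fun g hg => hX.gens g hg
  refine exists_centre_ev (s := s) tl S0 hR ?_ hX.ε hI hA hB
  rintro a q ⟨h, hh, hq⟩
  exact ⟨h, hh, (hR.nz_pt a q (hX.hs h hh)).2 hq⟩

end Crest.Agent.X262.Res85
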