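import Crest.Agent.X262.Res85.Wt
import Crest.Agent.X277.Res.G1b
import Crest.Agent.X277.Res.GDefs

/-!
# Row 262, RES+ : transport of the local data along the action (helper85)

* `LIso σ L L'`  : `up σ` carries the graded-local ring `L` onto `L'`;
* `EG.pt a q`    : the translate of the point `q`;
* `EG.liso`      : `up (s a)` carries `locOf h (pt a q)` onto `locOf h q`;
* `LIso.comp`    : competitors are transported;
* `LIso.coord`   : coordinates are transported;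
* `glue_JJ_stable` : the global centre ideals are stable under the action.
-/

set_option autoImplicit false
set_option linter.unusedSectionVars false

noncomputable section

namespace Crest.Agent.X262.Res85

open AddMonoidAlgebra Crest.Agent.X277.Res Crest.Agent.X277.Res.Gr Crest.Agent.X277.Res.G1

variable {k C G : Type} [Field k] [Field C] [Algebra k C] [AddCommGroup G]

theorem up_mem_span (σ : C ≃ₐ[k] C) {O O' : Subalgebra k (GA C G)} (hO : ∀ f ∈ O, up σ f ∈ O')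
    {S S' : Set (GA C G)} (hS : ∀ g ∈ S, up σ g ∈ Submodule.span O' S') {f : GA C G}
    (hf : f ∈ Submodule.span O S) : up σ f ∈ Submodule.span O' S' := by
  induction hf using Submodule.span_induction with
  | mem g hg => exact hS g hg
  | zero => rw [map_zero]; exact zero_mem _
  | add x y _ _ hx hy => rw [map_add]; exact add_mem hx hy
  | smul r x _ hx =>
    show up σ ((r : GA C G) * x) ∈ _
    rw [map_mul]
    exact mul_mem_sub (hO _ r.2) hx

theorem up_mem_filt (σ : C ≃ₐ[k] C) {O O' : Subalgebra k (GA C G)} (hO : ∀ f ∈ O, up σ f ∈ O')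
    {ι : Type} [Fintype ι] {z : ι → GA C G} {w : ι → ℚ} {c : ℚ} {f : GA C G}
    (hf : f ∈ filt O z w c) : up σ f ∈ filt O' (fun i => up σ (z i)) w c := by
  refine up_mem_span σ hO ?_ hf
  rintro _ ⟨γ, hγ, rfl⟩
  rw [map_prod]
  simp only [map_pow]
  exact mon_mem_filt O' _ hγ

theorem up_mem_prin (σ : C ≃ₐ[k] C) {O O' : Subalgebra k (GA C G)} (hO : ∀ f ∈ O, up σ f ∈ O')
    {z f : GA C G} (hf : f ∈ prin O z) : up σ f ∈ prin O' (up σ z) := by
  refine up_mem_span σ hO ?_ hf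
  rintro _ rfl
  exact Submodule.subset_span rfl

/-- `up σ` carries `L` onto `L'` -/
structure LIso (σ : C ≃ₐ[k] C) (L L' : Loc k C G) : Prop where
  O : ∀ f, f ∈ L.O ↔ up σ f ∈ L'.O
  m : ∀ f, f ∈ L.m ↔ up σ f ∈ L'.m
  M : L.M = L'.M

namespace LIso

variable {σ : C ≃ₐ[k] C} {L L' : Loc k C G}

theorem symm (h : LIso σ L L') : LIso σ⁻¹ L' L where
  O f := by rw [h.O, up_up_inv]
  m f := by rw [h.m, up_up_inv]
  M := h.M.symm

theorem up_mem (h : LIso σ L L') : ∀ f ∈ L.O, up σ f ∈ L'.O := fun f hf => (h.O f).1 hf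

theorem gprime (h : LIso σ L L') {z : GA C G} (hz : GPrime L.O (prin L.O z)) :
    GPrime L'.O (prin L'.O (up σ z)) := by
  intro a ha b hb hHa hHb hab
  have h1 := up_mem_prin σ⁻¹ h.symm.up_mem hab
  rw [map_mul, up_inv_up] at h1
  rcases hz _ (h.symm.up_mem a ha) _ (h.symm.up_mem b hb) (isH_up _ hHa) (isH_up _ hHb) h1 with
    h2 | h2
  · exact Or.inl (by simpa only [up_up_inv] using up_mem_prin σ h.up_mem h2)
  · exact Or.inr (by simpa only [up_up_inv] using up_mem_prin σ h.up_mem h2)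

theorem shape (h : LIso σ L L') {d : ℕ} {z : Fin d → GA C G} {w : Fin d → ℚ} {t : Fin d → Bool}
    (hz : Shape L.O ⟨z, w, t⟩) : Shape L'.O ⟨fun i => up σ (z i), w, t⟩ :=
  ⟨fun i => h.up_mem _ (hz.mem i), fun i => isH_up σ (hz.hom i), hz.nonneg, hz.sorted, hz.t_pos⟩

/-- competitors are transported when `ε` and the elements of `I` are eigenvectors -/
theorem comp (h : LIso σ L L') {ε : GA C G} {I : Set (GA C G)}
    (hε : ∃ u : kˣ, up σ ε = (u : k) • ε) (hI : ∀ f ∈ I, ∃ u : kˣ, up σ f = (u : k) • f)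
    {d : ℕ} {z : Fin d → GA C G} {w : Fin d → ℚ} {t : Fin d → Bool}
    (hz : Comp L ε I ⟨z, w, t⟩) : Comp L' ε I ⟨fun i => up σ (z i), w, t⟩ := by
  have key : ∀ (N : Submodule L'.O (GA C G)) (f : GA C G) (u : kˣ), (u : k) • f ∈ N → f ∈ N := by
    intro N f u hf
    have := Submodule.smul_of_tower_mem N ((u⁻¹ : kˣ) : k) hf
    rwa [smul_smul, Units.inv_mul, one_smul] at this
  refine ⟨h.shape hz.shape, fun i hi => (h.m _).1 (hz.mem_m i hi),
    fun i hi => ⟨h.gprime (hz.div i hi).1, ?_⟩, fun f hf => ?_⟩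
  · obtain ⟨u, hu⟩ := hε
    exact key _ _ u (hu ▸ up_mem_prin σ h.up_mem (hz.div i hi).2)
  · obtain ⟨u, hu⟩ := hI f hf
    exact key _ _ u (hu ▸ up_mem_filt σ h.up_mem (hz.adm f hf))

end LIso

/-- conjugation of a derivation -/
def conj (σ : C ≃ₐ[k] C) (δ : Der k C G) : Der k C G where
  toFun f := up σ (δ (up σ⁻¹ f))
  map_add' f g := by simp only [map_add]
  map_smul' c f := by simp only [map_smul, Derivation.map_smul, RingHom.id_apply]
  map_one_eq_zero' := by simp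
  leibniz' f g := by
    simp only [LinearMap.coe_mk, AddHom.coe_mk, map_mul, Derivation.leibniz, smul_eq_mul, map_add,
      up_up_inv]

theorem conj_apply (σ : C ≃ₐ[k] C) (δ : Der k C G) (f : GA C G) :
    conj σ δ f = up σ (δ (up σ⁻¹ f)) := rfl

theorem conj_up (σ : C ≃ₐ[k] C) (δ : Der k C G) (f : GA C G) :
    conj σ δ (up σ f) = up σ (δ f) := by rw [conj_apply, up_inv_up]

/-- coordinates are transported -/
def LIso.coord {σ : C ≃ₐ[k] C} {L L' : Loc k C G} (h : LIso σ L L') {ε : GA C G} {v : kˣ}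
    (hε : up σ ε = (v : k) • ε) {T : Set (GA C G)} (hT : ∀ t ∈ T, up σ⁻¹ t ∈ T) {ι : Type}
    [Fintype ι] [DecidableEq ι] (c : Coord L ε T ι) : Coord L' ε T ι where
  x i := up σ (c.x i)
  ξ := c.ξ
  D i := conj σ (c.D i)
  n := c.n
  u := ((v⁻¹ : kˣ) : k) • up σ c.u
  hom i := hom_up σ (c.hom i)
  span_eq := by
    ext f
    constructor
    · intro hf
      have h1 := (h.symm.m f).1 hf
      rw [c.span_eq] at h1
      have h2 := up_mem_span σ h.up_mem (S' := Set.range fun i => up σ (c.x i)) (by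
        rintro _ ⟨i, rfl⟩
        exact Submodule.subset_span ⟨i, rfl⟩) h1
      rwa [up_up_inv] at h2
    · refine fun hf => Submodule.span_le.2 ?_ hf
      rintro _ ⟨i, rfl⟩
      exact (h.m _).1 (c.span_eq ▸ Submodule.subset_span ⟨i, rfl⟩)
  homD i μ f hf := hom_up σ (c.homD i μ _ (hom_up σ⁻¹ hf))
  pres i f hf := h.up_mem _ (c.pres i _ (h.symm.up_mem f hf))
  kills i t ht := by rw [conj_apply, c.kills i _ (hT t ht), map_zero]
  dual i j := by
    rw [conj_up, c.dual]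
    split_ifs <;> simp
  U μ hμ := by
    obtain ⟨N, hN, e, he, hm, hH, hD⟩ := c.U μ (h.M ▸ hμ)
    exact ⟨N, hN, up σ e, h.up_mem e he, fun h1 => hm ((h.m e).2 h1), hom_up σ hH,
      fun i => by rw [conj_up, hD, map_zero]⟩
  u_mem := L'.O.smul_mem (h.up_mem _ c.u_mem) _
  u_hom := IsHom.smul (isH_up σ c.u_hom) _
  u_notMem h1 := by
    have h2 := Submodule.smul_of_tower_mem L'.m (v : k) h1
    rw [smul_smul, Units.mul_inv, one_smul] at h2
    exact c.u_notMem ((h.m _).2 h2)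
  eps := by
    have h1 := congrArg (up σ) c.eps
    rw [hε, map_mul, map_prod] at h1
    simp only [map_pow] at h1
    rw [smul_mul_assoc, ← h1, smul_smul, Units.inv_mul, one_smul]

theorem up_mem_fresh {C : Type} [Field C] [Algebra k C] (σ : C ≃ₐ[k] C) {ρ : ℕ} {t : GA C MM}
    (ht : t ∈ fresh C ρ) : up σ t ∈ fresh C ρ := by
  obtain ⟨μ, hμ, rfl⟩ := ht
  exact ⟨μ, hμ, up_chi σ μ⟩

variable {s : Act k C} {R : Subalgebra k (GA C G)}

/-- the translate of a point -/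
def EG.pt (hR : EG s R) (a : kˣ) (q : R →ₐ[k] k) : R →ₐ[k] k := q.comp (hR.act a)

theorem EG.pt_apply (hR : EG s R) (a : kˣ) (q : R →ₐ[k] k) (f : R) :
    hR.pt a q f = q (hR.act a f) := rfl

theorem EG.act_mul (hR : EG s R) (a b : kˣ) (f : R) :
    hR.act (a * b) f = hR.act a (hR.act b f) :=
  Subtype.ext (by simp only [EG.coe_act, map_mul, up_mul])

theorem EG.act_one (hR : EG s R) (f : R) : hR.act 1 f = f :=
  Subtype.ext (by simp only [EG.coe_act, map_one, up_one])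

theorem EG.pt_pt (hR : EG s R) (a b : kˣ) (q : R →ₐ[k] k) :
    hR.pt b (hR.pt a q) = hR.pt (a * b) q := by
  ext f
  rw [hR.pt_apply, hR.pt_apply, hR.pt_apply, hR.act_mul]

theorem EG.pt_one (hR : EG s R) (q : R →ₐ[k] k) : hR.pt 1 q = q := by
  ext f
  rw [hR.pt_apply, hR.act_one]

/-- the value of a weight vector at a translated point -/
theorem EG.pt_of_wtA (hR : EG s R) (a : kˣ) (q : R →ₐ[k] k) {f : R} {n : ℤ}
    (hf : WtA s n (f : GA C G)) : hR.pt a q f = ((a ^ n : kˣ) : k) * q f := by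
  rw [hR.pt_apply, show hR.act a f = ((a ^ n : kˣ) : k) • f from Subtype.ext (hf a), map_smul,
    smul_eq_mul]

theorem EG.pt_ne_zero (hR : EG s R) (a : kˣ) (q : R →ₐ[k] k) {f : R} (hf : EV s (f : GA C G)) :
    hR.pt a q f ≠ 0 ↔ q f ≠ 0 := by
  obtain ⟨n, hn⟩ := hf.wtA
  rw [hR.pt_of_wtA a q hn, mul_ne_zero_iff, and_iff_right (Units.ne_zero _)]

theorem EG.nz_pt (hR : EG s R) (a : kˣ) (q : R →ₐ[k] k) {f : GA C G} (hf : EV s f) :
    NZ (hR.pt a q) f ↔ NZ q f :=
  exists_congr fun h => hR.pt_ne_zero a q (f := ⟨f, h⟩) hf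

theorem EG.up_mem_loc (hR : EG s R) (a : kˣ) (q : R →ₐ[k] k) {f : GA C G}
    (hf : f ∈ loc R (hR.pt a q)) : up (s a) f ∈ loc R q := by
  obtain ⟨b, hb, hq, hbf⟩ := hf
  refine ⟨hR.act a b, isH_up _ hb, hq, ?_⟩
  rw [EG.coe_act, ← map_mul]
  exact hR.up_mem a hbf

theorem EG.ev_up (hR : EG s R) (a : kˣ) (q : R →ₐ[k] k) (f : loc R (hR.pt a q)) :
    ev R q ⟨up (s a) f, hR.up_mem_loc a q f.2⟩ = ev R (hR.pt a q) f := by
  obtain ⟨b, _, hq, hbf⟩ := f.2
  have h1 := ev_spec f hbf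
  have h2 := ev_spec (q := q) ⟨up (s a) f, hR.up_mem_loc a q f.2⟩ (b := hR.act a b) (by
    rw [EG.coe_act, ← map_mul]; exact hR.up_mem a hbf)
  refine mul_left_cancel₀ hq (h2.symm.trans (Eq.trans ?_ h1))
  rw [hR.pt_apply]
  congr 1
  exact Subtype.ext (map_mul _ _ _).symm

variable {M : AddSubgroup G}

theorem EG.up_mem_m (hR : EG s R) (h : Good R M) (a : kˣ) (q : R →ₐ[k] k) {f : GA C G}
    (hf : f ∈ (locOf h (hR.pt a q)).m) : up (s a) f ∈ (locOf h q).m := by
  obtain ⟨hf, hm⟩ := (mem_locOf_m h).1 hf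
  refine (mem_locOf_m h).2 ⟨hR.up_mem_loc a q hf, (mem_mx_iff h.gr).2 fun μ => ?_⟩
  rw [← (mem_mx_iff h.gr).1 hm μ, ← hR.ev_up]
  congr 1
  exact Subtype.ext (up_cp _ _ _).symm

/-- `up (s a)` carries the local ring at the translate of `q` onto the local ring at `q` -/
theorem EG.liso (hR : EG s R) (h : Good R M) (a : kˣ) (q : R →ₐ[k] k) :
    LIso (s a) (locOf h (hR.pt a q)) (locOf h q) where
  O f := ⟨hR.up_mem_loc a q, fun hf => by
    have h1 := hR.up_mem_loc a⁻¹ (hR.pt a q) (f := up (s a) f) (by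
      rwa [hR.pt_pt, mul_inv_cancel, hR.pt_one])
    rwa [map_inv, up_inv_up] at h1⟩
  m f := ⟨hR.up_mem_m h a q, fun hf => by
    have h1 := hR.up_mem_m h a⁻¹ (hR.pt a q) (f := up (s a) f) (by
      rwa [hR.pt_pt, mul_inv_cancel, hR.pt_one])
    rwa [map_inv, up_inv_up] at h1⟩
  M := rfl

/-- a family of local ideals compatible with the action glues to a stable ideal -/
theorem glue_stable (hR : EG s R) {U : Set (R →ₐ[k] k)} (hU : ∀ a, ∀ q ∈ U, hR.pt a q ∈ U)
    {J : ∀ q : R →ₐ[k] k, Ideal (loc R q)}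
    (hJ : ∀ a, ∀ q ∈ U, ∀ f ∈ J (hR.pt a q), ⟨up (s a) f, hR.up_mem_loc a q f.2⟩ ∈ J q) (a : kˣ)
    (f : R) (hf : f ∈ glue U J) : hR.act a f ∈ glue U J :=
  mem_glue.2 fun q hq => hJ a q hq _ (mem_glue.1 hf _ (hU a q hq))

theorem JJ_up (hR : EG s R) (h : Good R M) {ε : GA C G} {I : Set (GA C G)} (hε : EV s ε)
    (hI : ∀ f ∈ I, EV s f) {d : ℕ} (w : Fin d → ℚ) (t : Fin d → Bool) (c : ℚ) (a : kˣ)
    (q : R →ₐ[k] k) (f : loc R (hR.pt a q)) (hf : f ∈ JJ h ε I w t c (hR.pt a q)) :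
    (⟨up (s a) f, hR.up_mem_loc a q f.2⟩ : loc R q) ∈ JJ h ε I w t c q := by
  refine mem_JJ.2 fun z hz => ?_
  have h1 := (hR.liso h a q).symm.comp (by rw [← map_inv]; exact hε.up_eq _)
    (fun g hg => by rw [← map_inv]; exact (hI g hg).up_eq _) hz
  have h2 := up_mem_filt (s a) (hR.liso h a q).up_mem (mem_JJ.1 hf _ h1)
  simp only [up_up_inv] at h2
  exact h2

/-- the global centre ideals are stable under the action -/
theorem glue_JJ_stable (hR : EG s R) (h : Good R M) {U : Set (R →ₐ[k] k)}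
    (hU : ∀ a, ∀ q ∈ U, hR.pt a q ∈ U) {ε : GA C G} {I : Set (GA C G)} (hε : EV s ε)
    (hI : ∀ f ∈ I, EV s f) {d : ℕ} (w : Fin d → ℚ) (t : Fin d → Bool) (c : ℚ) (a : kˣ) (f : R)
    (hf : f ∈ glue U (JJ h ε I w t c)) : hR.act a f ∈ glue U (JJ h ε I w t c) :=
  glue_stable hR hU (fun a q _ g hg => JJ_up hR h hε hI w t c a q g hg) a f hf

end Crest.Agent.X262.Res85
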