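import Crest.Agent.X277.Res.LocOf

/-!
# Row 262, RES+ : weight vectors of an action of `kˣ` (helper85)

* `Act k C`      : actions `s : kˣ →* (C ≃ₐ[k] C)`;
* `Wt s n c`     : `c : C` is a weight vector of weight `n`;
* `up σ`         : the automorphism of `C[G]` acting on the coefficients;
* `WtA s n f`    : `f : C[G]` is a weight vector;
* `EV s f`       : `f` is homogeneous and a weight vector;
* `EG s R`       : `R` is spanned by its `EV` elements;
* `EG.exists_finset` : a homogeneous stable ideal has finitely many `EV` generators;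
* `EG.ev_of_mul` : homogeneous divisors of a nonzero `EV` element are `EV`.
-/

set_option autoImplicit false
set_option linter.unusedSectionVars false

noncomputable section

namespace Crest.Agent.X262.Res85

open AddMonoidAlgebra Crest.Agent.X277.Res Crest.Agent.X277.Res.Gr

variable {k C G : Type} [Field k] [Field C] [Algebra k C] [AddCommGroup G]

/-- actions of the multiplicative group on the field `C` -/
abbrev Act (k C : Type) [Field k] [Field C] [Algebra k C] : Type := kˣ →* (C ≃ₐ[k] C)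

/-- `c` is a weight vector of weight `n` -/
def Wt (s : Act k C) (n : ℤ) (c : C) : Prop := ∀ a : kˣ, s a c = ((a ^ n : kˣ) : k) • c

variable {s : Act k C}

theorem wt_zero (s : Act k C) (n : ℤ) : Wt s n 0 := fun a => by simp

theorem wt_algebraMap (s : Act k C) (c : k) : Wt s 0 (algebraMap k C c) := fun a => by simp

theorem wt_one (s : Act k C) : Wt s 0 1 := fun a => by simp

theorem Wt.mul {n m : ℤ} {c d : C} (hc : Wt s n c) (hd : Wt s m d) : Wt s (n + m) (c * d) :=
  fun a => by rw [map_mul, hc a, hd a, smul_mul_smul_comm, zpow_add, Units.val_mul]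

theorem Wt.add {n : ℤ} {c d : C} (hc : Wt s n c) (hd : Wt s n d) : Wt s n (c + d) :=
  fun a => by rw [map_add, hc a, hd a, smul_add]

theorem Wt.neg {n : ℤ} {c : C} (hc : Wt s n c) : Wt s n (-c) :=
  fun a => by rw [map_neg, hc a, smul_neg]

theorem Wt.sub {n : ℤ} {c d : C} (hc : Wt s n c) (hd : Wt s n d) : Wt s n (c - d) :=
  fun a => by rw [map_sub, hc a, hd a, smul_sub]

theorem Wt.smul {n : ℤ} {c : C} (hc : Wt s n c) (r : k) : Wt s n (r • c) :=
  fun a => by rw [map_smul, hc a, smul_comm]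

theorem Wt.inv {n : ℤ} {c : C} (hc : Wt s n c) : Wt s (-n) c⁻¹ := fun a => by
  rw [map_inv₀, hc a, Algebra.smul_def, Algebra.smul_def, mul_inv, ← map_inv₀, zpow_neg,
    Units.val_inv_eq_inv_val]

theorem Wt.div {n m : ℤ} {c d : C} (hc : Wt s n c) (hd : Wt s m d) : Wt s (n - m) (c / d) := by
  rw [div_eq_mul_inv, sub_eq_add_neg]; exact hc.mul hd.inv

theorem Wt.pow {n : ℤ} {c : C} (hc : Wt s n c) (m : ℕ) : Wt s (m * n) (c ^ m) := by
  induction m with
  | zero => simpa using wt_one s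
  | succ m ih => rw [pow_succ, Nat.cast_succ, add_mul, one_mul]; exact ih.mul hc

theorem Wt.zpow {n : ℤ} {c : C} (hc : Wt s n c) (m : ℤ) : Wt s (m * n) (c ^ m) := by
  obtain ⟨m, rfl | rfl⟩ := m.eq_nat_or_neg
  · rw [zpow_natCast]; exact hc.pow m
  · rw [zpow_neg, zpow_natCast, neg_mul]; exact (hc.pow m).inv

theorem Wt.sum {ι : Type*} {n : ℤ} (t : Finset ι) {c : ι → C} (hc : ∀ i ∈ t, Wt s n (c i)) :
    Wt s n (∑ i ∈ t, c i) :=
  Finset.sum_induction _ _ (fun _ _ => Wt.add) (wt_zero s n) hc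

/-- the automorphism of `C[G]` acting on the coefficients -/
def up (σ : C ≃ₐ[k] C) : GA C G ≃ₐ[k] GA C G := AddMonoidAlgebra.mapAlgEquiv k G σ

theorem coeff_up (σ : C ≃ₐ[k] C) (f : GA C G) (μ : G) : (up σ f).coeff μ = σ (f.coeff μ) :=
  AddMonoidAlgebra.coeff_mapAlgHom (σ : C →ₐ[k] C) f μ

theorem up_single (σ : C ≃ₐ[k] C) (μ : G) (c : C) :
    (up σ (single μ c) : GA C G) = single μ (σ c) :=
  AddMonoidAlgebra.mapAlgHom_single (σ : C →ₐ[k] C) μ c

theorem up_chi (σ : C ≃ₐ[k] C) (μ : G) : (up σ (chi μ) : GA C G) = chi μ := by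
  unfold chi; rw [up_single, map_one]

theorem up_mul (σ τ : C ≃ₐ[k] C) (f : GA C G) : up (σ * τ) f = up σ (up τ f) := by
  ext μ; simp only [coeff_up]; rfl

theorem up_one (f : GA C G) : up (1 : C ≃ₐ[k] C) f = f := by
  ext μ; simp only [coeff_up]; rfl

theorem up_inv_up (σ : C ≃ₐ[k] C) (f : GA C G) : up σ⁻¹ (up σ f) = f := by
  rw [← up_mul, inv_mul_cancel, up_one]

theorem up_up_inv (σ : C ≃ₐ[k] C) (f : GA C G) : up σ (up σ⁻¹ f) = f := by
  rw [← up_mul, mul_inv_cancel, up_one]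

theorem up_cp (σ : C ≃ₐ[k] C) (μ : G) (f : GA C G) : up σ (cp μ f) = cp μ (up σ f) := by
  unfold cp; rw [up_single, coeff_up]

theorem hom_up (σ : C ≃ₐ[k] C) {μ : G} {f : GA C G} (h : Hom μ f) : Hom μ (up σ f) := by
  obtain ⟨c, rfl⟩ := h
  exact ⟨_, up_single σ μ c⟩

theorem isH_up (σ : C ≃ₐ[k] C) {f : GA C G} (h : IsH f) : IsH (up σ f) := by
  obtain ⟨μ, h⟩ := h
  exact ⟨μ, hom_up σ h⟩

/-- `f : C[G]` is a weight vector of weight `n` -/
def WtA (s : Act k C) (n : ℤ) (f : GA C G) : Prop :=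
  ∀ a : kˣ, up (s a) f = ((a ^ n : kˣ) : k) • f

theorem wtA_iff {n : ℤ} {f : GA C G} : WtA s n f ↔ ∀ μ, Wt s n (f.coeff μ) := by
  constructor
  · intro h μ a
    rw [← coeff_up, h a]; simp
  · intro h a
    ext μ
    rw [coeff_up, h μ a]; simp

theorem wtA_single {n : ℤ} {μ : G} {c : C} : WtA s n (single μ c : GA C G) ↔ Wt s n c := by
  classical
  rw [wtA_iff]
  constructor
  · intro h
    simpa using h μ
  · intro h ν
    rw [coeff_single, Finsupp.single_apply]
    split_ifs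
    · exact h
    · exact wt_zero s n

theorem wtA_zero (s : Act k C) (n : ℤ) : WtA s n (0 : GA C G) := fun a => by simp

theorem wtA_one (s : Act k C) : WtA s 0 (1 : GA C G) := fun a => by simp

theorem WtA.add {n : ℤ} {f g : GA C G} (hf : WtA s n f) (hg : WtA s n g) : WtA s n (f + g) :=
  fun a => by rw [map_add, hf a, hg a, smul_add]

theorem WtA.smul {n : ℤ} {f : GA C G} (hf : WtA s n f) (r : k) : WtA s n (r • f) :=
  fun a => by rw [map_smul, hf a, smul_comm]

theorem WtA.mul {n m : ℤ} {f g : GA C G} (hf : WtA s n f) (hg : WtA s m g) :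
    WtA s (n + m) (f * g) :=
  fun a => by rw [map_mul, hf a, hg a, smul_mul_smul_comm, zpow_add, Units.val_mul]

theorem WtA.cp {n : ℤ} {f : GA C G} (hf : WtA s n f) (μ : G) : WtA s n (cp μ f) :=
  wtA_single.2 (wtA_iff.1 hf μ)

/-- homogeneous and a weight vector -/
def EV (s : Act k C) (f : GA C G) : Prop := ∃ (μ : G) (c : C) (n : ℤ), f = single μ c ∧ Wt s n c

theorem ev_iff {f : GA C G} : EV s f ↔ IsH f ∧ ∃ n, WtA s n f := by
  constructor
  · rintro ⟨μ, c, n, rfl, h⟩
    exact ⟨⟨μ, c, rfl⟩, n, wtA_single.2 h⟩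
  · rintro ⟨⟨μ, c, rfl⟩, n, h⟩
    exact ⟨μ, c, n, rfl, wtA_single.1 h⟩

theorem EV.isH {f : GA C G} (h : EV s f) : IsH f := (ev_iff.1 h).1

theorem EV.wtA {f : GA C G} (h : EV s f) : ∃ n, WtA s n f := (ev_iff.1 h).2

theorem ev_single {μ : G} {c : C} {n : ℤ} (h : Wt s n c) : EV s (single μ c : GA C G) :=
  ⟨μ, c, n, rfl, h⟩

theorem EV.wt_of_single {μ : G} {c : C} (h : EV s (single μ c : GA C G)) : ∃ n, Wt s n c :=
  h.wtA.imp fun _ => wtA_single.1

theorem WtA.ev_cp {n : ℤ} {f : GA C G} (hf : WtA s n f) (μ : G) : EV s (Gr.cp μ f) :=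
  ev_iff.2 ⟨isHom_cp μ f, n, hf.cp μ⟩

theorem ev_zero (s : Act k C) : EV s (0 : GA C G) := ⟨0, 0, 0, by simp, wt_zero s 0⟩

theorem ev_chi (s : Act k C) (μ : G) : EV s (chi μ : GA C G) := ⟨μ, 1, 0, rfl, wt_one s⟩

theorem ev_one (s : Act k C) : EV s (1 : GA C G) := ev_chi s 0

theorem ev_algebraMap (s : Act k C) (c : k) : EV s (algebraMap k (GA C G) c) :=
  ⟨0, algebraMap k C c, 0, by rw [AddMonoidAlgebra.coe_algebraMap]; rfl, wt_algebraMap s c⟩

theorem EV.mul {f g : GA C G} (hf : EV s f) (hg : EV s g) : EV s (f * g) := by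
  obtain ⟨μ, c, n, rfl, hc⟩ := hf
  obtain ⟨ν, d, m, rfl, hd⟩ := hg
  exact ⟨_, _, _, single_mul_single _ _ _ _, hc.mul hd⟩

theorem EV.pow {f : GA C G} (hf : EV s f) (n : ℕ) : EV s (f ^ n) := by
  induction n with
  | zero => rw [pow_zero]; exact ev_one s
  | succ n ih => rw [pow_succ]; exact ih.mul hf

theorem EV.prod {ι : Type*} (t : Finset ι) {f : ι → GA C G} (hf : ∀ i ∈ t, EV s (f i)) :
    EV s (∏ i ∈ t, f i) :=
  Finset.prod_induction _ _ (fun _ _ => EV.mul) (ev_one s) hf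

theorem EV.smul {f : GA C G} (hf : EV s f) (r : k) : EV s (r • f) := by
  rw [Algebra.smul_def]; exact (ev_algebraMap s r).mul hf

theorem EV.neg {f : GA C G} (hf : EV s f) : EV s (-f) := by
  rw [← neg_one_smul k f]; exact hf.smul _

/-- the inverse of an `EV` element is `EV` -/
theorem EV.of_mul_eq_one {f g : GA C G} (hf : EV s f) (h : g * f = 1) : EV s g := by
  obtain ⟨μ, c, n, rfl, hc⟩ := hf
  have hc0 : c ≠ 0 := by
    rintro rfl
    rw [single_zero, mul_zero] at h
    exact zero_ne_one h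
  have h1 : (single μ c * single (-μ) c⁻¹ : GA C G) = 1 := by
    rw [single_mul_single, add_neg_cancel, mul_inv_cancel₀ hc0]; rfl
  have : g = single (-μ) c⁻¹ := by rw [← mul_one g, ← h1, ← mul_assoc, h, one_mul]
  exact ⟨_, _, _, this, hc.inv⟩

/-- a quotient of `EV` elements is `EV` -/
theorem EV.of_mul {b f : GA C G} (hb : EV s b) (hb0 : b ≠ 0) (h : EV s (b * f)) : EV s f := by
  obtain ⟨c, -, hcb⟩ := IsHom.exists_inv hb.isH hb0
  have : f = c * (b * f) := by rw [← mul_assoc, hcb, one_mul]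
  rw [this]
  exact (hb.of_mul_eq_one hcb).mul h

/-- an `EV` element is an eigenvector of every `s a` -/
theorem EV.up_eq {f : GA C G} (hf : EV s f) (a : kˣ) : ∃ u : kˣ, up (s a) f = (u : k) • f := by
  obtain ⟨n, hn⟩ := hf.wtA
  exact ⟨_, hn a⟩

theorem EV.up {f : GA C G} (hf : EV s f) (a : kˣ) : EV s (up (s a) f) := by
  obtain ⟨u, hu⟩ := hf.up_eq a
  rw [hu]; exact hf.smul _

/-! ### decomposition into weight vectors -/

/-- eigenvectors with distinct eigenvalues whose sum lies in a stable subspace lie in it -/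
theorem mem_of_sum_mem {V ι : Type*} [AddCommGroup V] [Module k V] (T : V →ₗ[k] V)
    {W : Submodule k V} (hW : ∀ x ∈ W, T x ∈ W) (l : ι → k) (t : Finset ι)
    (hl : Set.InjOn l t) (v : ι → V) (hv : ∀ i ∈ t, T (v i) = l i • v i)
    (h : ∑ i ∈ t, v i ∈ W) : ∀ i ∈ t, v i ∈ W := by
  classical
  induction t using Finset.induction_on generalizing v with
  | empty => simp
  | insert j t hj ih =>
    have h1 : ∑ i ∈ t, (l i - l j) • v i ∈ W := by
      have h2 := W.sub_mem (hW _ h) (W.smul_mem (l j) h)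
      rw [map_sum, Finset.smul_sum, ← Finset.sum_sub_distrib, Finset.sum_insert hj,
        hv j (Finset.mem_insert_self _ _), sub_self, zero_add] at h2
      convert h2 using 1
      exact Finset.sum_congr rfl fun i hi => by rw [hv i (Finset.mem_insert_of_mem hi), sub_smul]
    have h3 : ∀ i ∈ t, v i ∈ W := by
      intro i hi
      have h4 := ih (hl.mono (by simp)) (fun i => (l i - l j) • v i) (fun i hi => by
        rw [map_smul, hv i (Finset.mem_insert_of_mem hi), smul_comm]) h1 i hi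
      have h5 : l i - l j ≠ 0 := sub_ne_zero.2 fun e => hj (by
        have := hl (by simp [hi]) (by simp) e
        exact this ▸ hi)
      exact (W.smul_mem_iff h5).1 h4
    intro i hi
    rcases Finset.mem_insert.1 hi with rfl | hi
    · rw [Finset.sum_insert hj] at h
      simpa using W.sub_mem h (W.sum_mem h3)
    · exact h3 i hi

/-- the unit `2` -/
def two (k : Type) [Field k] [CharZero k] : kˣ := Units.mk0 2 two_ne_zero

theorem two_zpow_injective [CharZero k] :
    Function.Injective fun n : ℤ => ((two k ^ n : kˣ) : k) := by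
  intro n m h
  simp only [two, Units.val_zpow_eq_zpow_val, Units.val_mk0] at h
  have h1 : ((2 : ℚ) ^ n) = 2 ^ m := by
    apply Rat.cast_injective (α := k)
    push_cast
    exact h
  exact zpow_right_injective₀ (by norm_num) (by norm_num) h1

/-- the weight of a nonzero weight vector is unique -/
theorem Wt.unique [CharZero k] {n m : ℤ} {c : C} (hn : Wt s n c) (hm : Wt s m c) (hc : c ≠ 0) :
    n = m :=
  two_zpow_injective (k := k) (smul_left_injective k hc ((hn _).symm.trans (hm _)))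

/-- the weight components of an element of a stable subspace lie in it -/
theorem wtA_mem [CharZero k] {W : Submodule k (GA C G)}
    (hW : ∀ a : kˣ, ∀ x ∈ W, up (s a) x ∈ W) (t : Finset ℤ) {v : ℤ → GA C G}
    (hv : ∀ n ∈ t, WtA s n (v n)) (h : ∑ n ∈ t, v n ∈ W) : ∀ n ∈ t, v n ∈ W :=
  mem_of_sum_mem (up (s (two k))).toLinearMap (hW _) _ t two_zpow_injective.injOn v
    (fun n hn => hv n hn _) h

theorem wt_mem [CharZero k] {W : Submodule k C}
    (hW : ∀ a : kˣ, ∀ x ∈ W, s a x ∈ W) (t : Finset ℤ) {v : ℤ → C}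
    (hv : ∀ n ∈ t, Wt s n (v n)) (h : ∑ n ∈ t, v n ∈ W) : ∀ n ∈ t, v n ∈ W :=
  mem_of_sum_mem (s (two k)).toLinearMap (hW _) _ t two_zpow_injective.injOn v
    (fun n hn => hv n hn _) h

/-- `R` is spanned by its `EV` elements -/
def EG (s : Act k C) (R : Subalgebra k (GA C G)) : Prop :=
  ∀ f ∈ R, f ∈ Submodule.span k {g | g ∈ R ∧ EV s g}

theorem eg_adjoin {S : Set (GA C G)} (hS : ∀ g ∈ S, EV s g) : EG s (Algebra.adjoin k S) := by
  intro f hf
  have h1 : f ∈ Subalgebra.toSubmodule (Algebra.adjoin k S) := hf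
  rw [Algebra.adjoin_eq_span] at h1
  refine Submodule.span_mono (fun g hg => ?_) h1
  induction hg using Submonoid.closure_induction with
  | mem x hx => exact ⟨Algebra.subset_adjoin hx, hS x hx⟩
  | one => exact ⟨one_mem _, ev_one s⟩
  | mul x y _ _ hx hy => exact ⟨mul_mem hx.1 hy.1, hx.2.mul hy.2⟩

variable {R : Subalgebra k (GA C G)}

theorem EG.up_mem (hR : EG s R) (a : kˣ) {f : GA C G} (hf : f ∈ R) : up (s a) f ∈ R := by
  have h := hR f hf
  clear hf
  induction h using Submodule.span_induction with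
  | mem g hg =>
    obtain ⟨u, hu⟩ := hg.2.up_eq a
    rw [hu]; exact R.smul_mem hg.1 _
  | zero => rw [map_zero]; exact zero_mem _
  | add x y _ _ hx hy => rw [map_add]; exact add_mem hx hy
  | smul r x _ hx => rw [map_smul]; exact R.smul_mem hx _

theorem EG.graded (hR : EG s R) : Graded R := by
  intro f hf μ
  have h := hR f hf
  clear hf
  induction h using Submodule.span_induction with
  | mem g hg =>
    rcases IsHom.cp_cases hg.2.isH μ with h | h <;> rw [h]
    · exact hg.1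
    · exact zero_mem _
  | zero => rw [cp_zero]; exact zero_mem _
  | add x y _ _ hx hy => rw [cp_add]; exact add_mem hx hy
  | smul r x _ hx => rw [cp_smul]; exact R.smul_mem hx _

/-- the weight decomposition -/
theorem EG.exists_dec (hR : EG s R) {f : GA C G} (hf : f ∈ R) :
    ∃ v : ℤ →₀ GA C G, (∀ n, v n ∈ R ∧ WtA s n (v n)) ∧ ∑ n ∈ v.support, v n = f := by
  classical
  have key : ∃ v : ℤ →₀ GA C G, (∀ n, v n ∈ R ∧ WtA s n (v n)) ∧ v.sum (fun _ x => x) = f := by
    have h := hR f hf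
    clear hf
    induction h using Submodule.span_induction with
    | mem g hg =>
      obtain ⟨n, hn⟩ := hg.2.wtA
      refine ⟨Finsupp.single n g, fun m => ?_, Finsupp.sum_single_index rfl⟩
      rw [Finsupp.single_apply]
      split_ifs with h
      · exact ⟨hg.1, h ▸ hn⟩
      · exact ⟨zero_mem _, wtA_zero s m⟩
    | zero => exact ⟨0, fun m => ⟨zero_mem _, wtA_zero s m⟩, Finsupp.sum_zero_index⟩
    | add x y _ _ hx hy =>
      obtain ⟨v, hv, rfl⟩ := hx
      obtain ⟨v', hv', rfl⟩ := hy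
      exact ⟨v + v', fun m => ⟨add_mem (hv m).1 (hv' m).1, (hv m).2.add (hv' m).2⟩,
        Finsupp.sum_add_index' (fun _ => rfl) fun _ _ _ => rfl⟩
    | smul r x _ hx =>
      obtain ⟨v, hv, rfl⟩ := hx
      refine ⟨r • v, fun m => ⟨R.smul_mem (hv m).1 r, (hv m).2.smul r⟩, ?_⟩
      rw [Finsupp.sum_smul_index' fun _ => rfl, Finsupp.smul_sum]
  exact key

/-- an element of `R` lying in a graded stable subspace `W` is a combination of `EV` elements of
`R ∩ W` -/
theorem EG.mem_span [CharZero k] (hR : EG s R) {W : Submodule k (GA C G)}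
    (hW : ∀ a : kˣ, ∀ x ∈ W, up (s a) x ∈ W) (hW' : ∀ μ, ∀ x ∈ W, cp μ x ∈ W) {f : GA C G}
    (hf : f ∈ R) (hfW : f ∈ W) : f ∈ Submodule.span k {g | g ∈ R ∧ g ∈ W ∧ EV s g} := by
  obtain ⟨v, hv, rfl⟩ := hR.exists_dec hf
  refine sum_mem fun n hn => ?_
  have h1 := wtA_mem hW _ (fun n _ => (hv n).2) hfW n hn
  rw [← sum_cp (v n)]
  exact sum_mem fun μ _ => Submodule.subset_span
    ⟨hR.graded _ (hv n).1 μ, hW' μ _ h1, (hv n).2.ev_cp μ⟩

/-- the action on `R` -/
def EG.act (hR : EG s R) (a : kˣ) : R →ₐ[k] R :=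
  (((up (s a) : GA C G ≃ₐ[k] GA C G) : GA C G →ₐ[k] GA C G).comp R.val).codRestrict R
    fun f => hR.up_mem a f.2

@[simp] theorem EG.coe_act (hR : EG s R) (a : kˣ) (f : R) :
    (hR.act a f : GA C G) = up (s a) f := rfl

/-- a homogeneous stable ideal is generated by its `EV` elements -/
theorem EG.eq_span [CharZero k] (hR : EG s R) {hG : Graded R} {J : Ideal R} (hJ : HomI hG J)
    (hs : ∀ a : kˣ, ∀ f ∈ J, hR.act a f ∈ J) :
    J = Ideal.span {f | f ∈ J ∧ EV s (f : GA C G)} := by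
  refine le_antisymm (fun f hf => ?_) (Ideal.span_le.2 fun f hf => hf.1)
  let W : Submodule k (GA C G) := (J.restrictScalars k).map R.val.toLinearMap
  have h1 := hR.mem_span (W := W) (by
    rintro a _ ⟨x, hx, rfl⟩
    exact ⟨hR.act a x, hs a x hx, rfl⟩) (by
    rintro μ _ ⟨x, hx, rfl⟩
    exact ⟨hG.cp μ x, hJ x hx μ, rfl⟩) f.2 ⟨f, hf, rfl⟩
  have key : ∀ g ∈ Submodule.span k {g | g ∈ R ∧ g ∈ W ∧ EV s g},
      g ∈ amb (Ideal.span {f : R | f ∈ J ∧ EV s (f : GA C G)}) := by
    intro g hg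
    induction hg using Submodule.span_induction with
    | mem g hg =>
      obtain ⟨-, ⟨x, hx, rfl⟩, h⟩ := hg
      exact coe_mem_amb.2 (Ideal.subset_span ⟨hx, h⟩)
    | zero => exact zero_mem _
    | add x y _ _ hx hy => exact add_mem hx hy
    | smul r x _ hx => exact Submodule.smul_of_tower_mem _ r hx
  exact coe_mem_amb.1 (key _ h1)

/-- a homogeneous stable ideal has finitely many `EV` generators -/
theorem EG.exists_finset [CharZero k] (hR : EG s R) [IsNoetherianRing R] {hG : Graded R}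
    {J : Ideal R} (hJ : HomI hG J) (hs : ∀ a : kˣ, ∀ f ∈ J, hR.act a f ∈ J) :
    ∃ t : Finset R, (∀ f ∈ t, EV s (f : GA C G)) ∧ Ideal.span (t : Set R) = J := by
  have h1 := hR.eq_span hJ hs
  obtain ⟨t, ht, hsp⟩ := (Submodule.fg_span_iff_fg_span_finset_subset
    {f : R | f ∈ J ∧ EV s (f : GA C G)}).1 (IsNoetherian.noetherian (Submodule.span R _))
  exact ⟨t, fun f hf => (ht hf).2, (h1.trans hsp).symm⟩

/-- a finitely generated `EG` algebra has finitely many nonzero `EV` generators -/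
theorem EG.exists_gens (hR : EG s R) (hfg : R.FG) :
    ∃ t : Finset (GA C G), (∀ f ∈ t, f ≠ 0 ∧ EV s f) ∧ Algebra.adjoin k (t : Set (GA C G)) = R := by
  classical
  obtain ⟨t, ht⟩ := hfg
  have h1 : ∀ f ∈ t, ∃ u : Finset (GA C G), (u : Set (GA C G)) ⊆ {g | g ∈ R ∧ EV s g} ∧
      f ∈ Submodule.span k (u : Set (GA C G)) := fun f hf =>
    Submodule.mem_span_finite_of_mem_span (hR f (ht ▸ Algebra.subset_adjoin hf))
  choose! u hu hu' using h1
  refine ⟨(t.biUnion u).filter (· ≠ 0), fun f hf => ?_, le_antisymm ?_ ?_⟩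
  · obtain ⟨hf, h0⟩ := Finset.mem_filter.1 hf
    obtain ⟨g, hg, hf⟩ := Finset.mem_biUnion.1 hf
    exact ⟨h0, (hu g hg hf).2⟩
  · refine Algebra.adjoin_le fun f hf => ?_
    obtain ⟨hf, -⟩ := Finset.mem_filter.1 hf
    obtain ⟨g, hg, hf⟩ := Finset.mem_biUnion.1 hf
    exact (hu g hg hf).1
  · rw [← ht]
    refine Algebra.adjoin_le fun f hf => ?_
    refine (Submodule.span_le (p := Subalgebra.toSubmodule (Algebra.adjoin k
      (((t.biUnion u).filter (· ≠ 0) : Finset (GA C G)) : Set (GA C G))))).2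
      (fun g hg => ?_) (hu' f hf)
    by_cases h0 : g = 0
    · rw [h0]; exact zero_mem _
    · exact Algebra.subset_adjoin (Finset.mem_filter.2 ⟨Finset.mem_biUnion.2 ⟨f, hf, hg⟩, h0⟩)

/-! ### divisors of weight vectors -/

theorem wt_of_mul [CharZero k] {A B : ℤ →₀ C} (hA : ∀ n, Wt s n (A n)) (hB : ∀ n, Wt s n (B n))
    {r : ℤ} (h : Wt s r ((∑ n ∈ A.support, A n) * ∑ n ∈ B.support, B n))
    (h0 : (∑ n ∈ A.support, A n) * ∑ n ∈ B.support, B n ≠ 0) :
    (∃ n, Wt s n (∑ n ∈ A.support, A n)) ∧ ∃ n, Wt s n (∑ n ∈ B.support, B n) := by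
  classical
  let a : AddMonoidAlgebra C ℤ := ofCoeff A
  let b : AddMonoidAlgebra C ℤ := ofCoeff B
  let E : AddMonoidAlgebra C ℤ →ₐ[C] C := AddMonoidAlgebra.lift C C ℤ 1
  have hE : ∀ x : AddMonoidAlgebra C ℤ, E x = ∑ n ∈ x.coeff.support, x.coeff n := by
    intro x
    simp [E, AddMonoidAlgebra.lift_apply, Finsupp.sum]
  have hP : ∀ m, Wt s m ((a * b).coeff m) := by
    intro m
    rw [coeff_mul_apply_left, Finsupp.sum]
    refine Wt.sum _ fun n _ => ?_
    have := (hA n).mul (hB (-n + m))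
    rwa [add_neg_cancel_left] at this
  set e := (∑ n ∈ A.support, A n) * ∑ n ∈ B.support, B n with he
  have hsum : ∑ m ∈ (a * b).coeff.support, (a * b).coeff m = e := by
    rw [← hE, map_mul, hE, hE]
  have hz : ∀ m, (a * b).coeff m ≠ 0 → m = r := by
    intro m hm
    by_contra hne
    have h1 := wt_mem (s := s) (W := ⊥) (fun a x hx => by
        rw [(Submodule.mem_bot k).1 hx, map_zero]; exact zero_mem _)
      (insert r (a * b).coeff.support)
      (v := fun m => (a * b).coeff m - if m = r then e else 0) (fun n _ => by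
        refine (hP n).sub ?_
        split_ifs with h1
        · exact h1 ▸ h
        · exact wt_zero s n) (by
        rw [Finset.sum_sub_distrib, Finset.sum_ite_eq', if_pos (Finset.mem_insert_self _ _),
          ← Finset.sum_subset (Finset.subset_insert r (a * b).coeff.support)
            (fun x _ hx => Finsupp.notMem_support_iff.1 hx), hsum, sub_self]
        exact zero_mem _) m (Finset.mem_insert_of_mem (Finsupp.mem_support_iff.2 hm))
    rw [if_neg hne, sub_zero, Submodule.mem_bot] at h1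
    exact hm h1
  have hcard : ¬ 1 < A.support.card * B.support.card := by
    intro hlt
    obtain ⟨p, hp, p', hp', hne, hu, hu'⟩ := TwoUniqueSums.uniqueAdd_of_one_lt_card hlt
    rw [Finset.mem_product] at hp hp'
    have h1 : p.1 + p.2 = r := hz _ (by
      rw [coeff_mul_add_of_uniqueAdd (f := a) (g := b) hu]
      exact mul_ne_zero (Finsupp.mem_support_iff.1 hp.1) (Finsupp.mem_support_iff.1 hp.2))
    have h2 : p'.1 + p'.2 = r := hz _ (by
      rw [coeff_mul_add_of_uniqueAdd (f := a) (g := b) hu']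
      exact mul_ne_zero (Finsupp.mem_support_iff.1 hp'.1) (Finsupp.mem_support_iff.1 hp'.2))
    obtain ⟨h3, h4⟩ := hu hp'.1 hp'.2 (h2.trans h1.symm)
    exact hne (Prod.ext h3.symm h4.symm)
  have hA0 : 0 < A.support.card := by
    refine Finset.card_pos.2 (Finset.nonempty_iff_ne_empty.2 fun h1 => h0 ?_)
    rw [he, h1, Finset.sum_empty, zero_mul]
  have hB0 : 0 < B.support.card := by
    refine Finset.card_pos.2 (Finset.nonempty_iff_ne_empty.2 fun h1 => h0 ?_)
    rw [he, h1, Finset.sum_empty, mul_zero]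
  have hA1 : A.support.card = 1 := by nlinarith
  have hB1 : B.support.card = 1 := by nlinarith
  obtain ⟨n, hn⟩ := Finset.card_eq_one.1 hA1
  obtain ⟨m, hm⟩ := Finset.card_eq_one.1 hB1
  rw [hn, hm, Finset.sum_singleton, Finset.sum_singleton]
  exact ⟨⟨n, hA n⟩, ⟨m, hB m⟩⟩

/-- the weight decomposition of the coefficient of a homogeneous element -/
theorem EG.exists_dec_single (hR : EG s R) {μ : G} {c : C} (hf : (single μ c : GA C G) ∈ R) :
    ∃ A : ℤ →₀ C, (∀ n, (single μ (A n) : GA C G) ∈ R ∧ Wt s n (A n)) ∧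
      ∑ n ∈ A.support, A n = c := by
  classical
  obtain ⟨v, hv, hs⟩ := hR.exists_dec hf
  refine ⟨v.mapRange (fun x : GA C G => x.coeff μ) rfl, fun n => ⟨hR.graded _ (hv n).1 μ,
    wtA_iff.1 (hv n).2 μ⟩, ?_⟩
  have h1 := congrArg (fun x : GA C G => x.coeff μ) hs
  simp only [coeff_single, Finsupp.single_eq_same, coeff_sum, Finsupp.finsetSum_apply] at h1
  rw [← h1]
  exact Finset.sum_subset Finsupp.support_mapRange fun x _ hx => Finsupp.notMem_support_iff.1 hx

/-- homogeneous divisors in `R` of a nonzero `EV` element are `EV` -/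
theorem EG.ev_of_mul [CharZero k] (hR : EG s R) {f g : GA C G} (hf : f ∈ R) (hg : g ∈ R)
    (hfH : IsH f) (hgH : IsH g) (h : EV s (f * g)) (h0 : f * g ≠ 0) : EV s f ∧ EV s g := by
  obtain ⟨μ, c, rfl⟩ := hfH
  obtain ⟨ν, d, rfl⟩ := hgH
  obtain ⟨A, hA, rfl⟩ := hR.exists_dec_single hf
  obtain ⟨B, hB, rfl⟩ := hR.exists_dec_single hg
  rw [single_mul_single] at h h0
  obtain ⟨r, hr⟩ := h.wt_of_single
  obtain ⟨⟨n, hn⟩, m, hm⟩ := wt_of_mul (fun n => (hA n).2) (fun n => (hB n).2) hr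
    fun h1 => h0 (by rw [h1, single_zero])
  exact ⟨ev_single hn, ev_single hm⟩

end Crest.Agent.X262.Res85
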